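import Vale.Agent.Lib.P012.Pairing

namespace Vale.Agent.Results.P012.DoubleExpReduction

open Vale.Agent.Lib.P012

/-- The conjectured bound `N(b) = O(log log b)` for all denominators `b ≥ 2` is equivalent to
the same bound along the single sequence of denominators `b = 2 ^ 2 ^ m`. -/
theorem result :
    (∃ C : ℕ, ∀ m : ℕ, NLe (2 ^ 2 ^ m) (C * (m + 1))) ↔
      (∃ C : ℕ, ∀ b : ℕ, 2 ≤ b → NLe b (C * (Nat.log 2 (Nat.log 2 b) + 1))) := by
  constructor
  · rintro ⟨C, hC⟩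
    refine ⟨4 * C, ?_⟩
    intro b hb
    set m := Nat.log 2 (Nat.log 2 b) + 1 with hm
    have h1 : Nat.log 2 b < 2 ^ m := Nat.lt_pow_succ_log_self (by norm_num) _
    have h2 : b < 2 ^ (Nat.log 2 b + 1) := Nat.lt_pow_succ_log_self (by norm_num) _
    have h3 : 2 ^ (Nat.log 2 b + 1) ≤ 2 ^ 2 ^ m :=
      Nat.pow_le_pow_right (by norm_num) (by omega)
    have h4 : b ≤ 2 ^ 2 ^ m := by omega
    have h5 := nle_of_le hb h4 (hC m)
    intro a ha hab
    apply (h5 a ha hab).mono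
    rw [hm]
    nlinarith [Nat.zero_le C, Nat.zero_le (Nat.log 2 (Nat.log 2 b))]
  · rintro ⟨C, hC⟩
    refine ⟨C, ?_⟩
    intro m
    have h1 : 2 ≤ 2 ^ 2 ^ m := by
      calc 2 = 2 ^ 1 := by norm_num
        _ ≤ 2 ^ 2 ^ m := Nat.pow_le_pow_right (by norm_num) Nat.one_le_two_pow
    have h2 := hC (2 ^ 2 ^ m) h1
    rw [Nat.log_pow (by norm_num), Nat.log_pow (by norm_num)] at h2
    exact h2

end Vale.Agent.Results.P012.DoubleExpReduction
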