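import Vale.Agent.Lib.P012.Pairing

namespace Vale.Agent.Results.P012.QuasiMonotone

open Vale.Agent.Lib.P012

/-- Quasi-monotonicity of the length function `N` of short Egyptian fractions:
for `2 ≤ b ≤ L`, if every `a'/L` (`1 ≤ a' < L`) is a sum of at most `k` distinct unit
fractions, then every `a/b` (`1 ≤ a < b`) is a sum of at most `2k` distinct unit fractions.
In the usual terms: `N(b) ≤ 2 N(L)` whenever `2 ≤ b ≤ L`. -/
theorem result : ∀ b L k : ℕ, 2 ≤ b → b ≤ L → NLe L k → NLe b (2 * k) :=
  fun _ _ _ hb hbL hL => nle_of_le hb hbL hL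

end Vale.Agent.Results.P012.QuasiMonotone
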