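import Vale.Agent.Lib.P012.Mul

namespace Vale.Agent.Results.P012.StructureOmnibus

open Vale.Agent.Lib.P012

/-- Three structural facts on the length function `N` of short Egyptian fractions, where
`NLe b k` says `N(b) ≤ k`.

(A) Quasi-monotonicity: `N(b) ≤ 2 N(L)` whenever `2 ≤ b ≤ L`.

(B) Sub-additivity under multiplication of denominators: `N(b c) ≤ N(b) + N(c)`.

(C) The conjectured bound `N(b) = O(log log b)` for all denominators `b ≥ 2` is equivalent to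
the same bound along the single sequence of denominators `b = 2 ^ 2 ^ m`. -/
theorem result :
    (∀ b L k : ℕ, 2 ≤ b → b ≤ L → NLe L k → NLe b (2 * k)) ∧
    (∀ b c k l : ℕ, 1 ≤ b → 1 ≤ c → NLe b k → NLe c l → NLe (b * c) (k + l)) ∧
    ((∃ C : ℕ, ∀ m : ℕ, NLe (2 ^ 2 ^ m) (C * (m + 1))) ↔
      (∃ C : ℕ, ∀ b : ℕ, 2 ≤ b → NLe b (C * (Nat.log 2 (Nat.log 2 b) + 1)))) := by
  refine ⟨fun _ _ _ hb hbL hL => nle_of_le hb hbL hL,
    fun _ _ _ _ hb hc hB hC => nle_mul hb hc hB hC, ?_⟩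
  constructor
  · rintro ⟨C, hC⟩
    refine ⟨4 * C, ?_⟩
    intro b hb
    set m := Nat.log 2 (Nat.log 2 b) + 1 with hm
    have h1 : Nat.log 2 b < 2 ^ m := Nat.lt_pow_succ_log_self (by norm_num) _
    have h2 : b < 2 ^ (Nat.log 2 b + 1) := Nat.lt_pow_succ_log_self (by norm_num) _
    have h3 : 2 ^ (Nat.log 2 b + 1) ≤ 2 ^ 2 ^ m :=
      Nat.pow_le_pow_right (by norm_num) (by omega)
    have h4 : b ≤ 2 ^ 2 ^ m := by omega
    have h5 := nle_of_le hb h4 (hC m)
    intro a ha hab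
    apply (h5 a ha hab).mono
    rw [hm]
    nlinarith [Nat.zero_le C, Nat.zero_le (Nat.log 2 (Nat.log 2 b))]
  · rintro ⟨C, hC⟩
    refine ⟨C, ?_⟩
    intro m
    have h1 : 2 ≤ 2 ^ 2 ^ m := by
      calc 2 = 2 ^ 1 := by norm_num
        _ ≤ 2 ^ 2 ^ m := Nat.pow_le_pow_right (by norm_num) Nat.one_le_two_pow
    have h2 := hC (2 ^ 2 ^ m) h1
    rw [Nat.log_pow (by norm_num), Nat.log_pow (by norm_num)] at h2
    exact h2

end Vale.Agent.Results.P012.StructureOmnibus
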